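import Crest.Agent.X212.Qab60.Qp
import Crest.Agent.X212.Lab56.Hom
import Crest.Agent.X212.Line51.Og

/-!
# Row 212, QA-TOP (helper4): transport of the classes inside an `S¹ × S²` wall
-/

set_option autoImplicit false
set_option linter.unusedSectionVars false
noncomputable section
open scoped Manifold ContDiff Topology Real
open Set Function Filter
open Crest.Agent.R208.F (Ext)

namespace Crest.Agent.X212.Qt4
open Qab60 Cyf70
open Dr59 hiding Cz
open Int54 (integ Ori SameOn)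
open Line51 (Ln ang Uni CSm)
open Rf65 (SC PR ar V3 QD LE Ref)

section gen
variable {E : Type} [NormedAddCommGroup E] [NormedSpace ℝ E] [FiniteDimensional ℝ E]
  [MeasurableSpace E] [BorelSpace E]
  {H : Type} [TopologicalSpace H] {I : ModelWithCorners ℝ E H} [I.Boundaryless]
  {M : Type} [TopologicalSpace M] [ChartedSpace H M] [IsManifold I ∞ M] [T2Space M]
  [MeasurableSpace M] [BorelSpace M] [SecondCountableTopology M]
  {E' : Type} [NormedAddCommGroup E'] [NormedSpace ℝ E'] [FiniteDimensional ℝ E']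
  [MeasurableSpace E'] [BorelSpace E']
  {H' : Type} [TopologicalSpace H'] {J : ModelWithCorners ℝ E' H'} [J.Boundaryless]
  {N : Type} [TopologicalSpace N] [ChartedSpace H' N] [IsManifold J ∞ N] [T2Space N]
  [MeasurableSpace N] [BorelSpace N] [SecondCountableTopology N]
  (φ : PartialDiffeomorph J I N M ∞) {U K : Set N} {w w' : N → Ext E'} {k : ℕ}

theorem pm_ar {f : N → M} {y : N} {ϖ : M → V3} (hf : MDifferentiableAt J I f y)
    (h : ContMDiffAt I 𝓘(ℝ, V3) ∞ ϖ (f y)) : pm J I f (ar I ϖ) y = ar J (ϖ ∘ f) y := by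
  have d := fun k : Fin 3 => pm_df hf (g := fun z => ϖ z k)
    (((EuclideanSpace.proj k : V3 →L[ℝ] ℝ).contMDiffAt.comp _ h).mdifferentiableAt ne0)
  simp only [pm_apply] at d
  simp only [pm_apply, ar, map_sum, map_smul, map_mul, d]
  rfl

theorem cs_le {μ : Type} [Fintype μ] {L : Ln E' N μ} (h : LE J L U) : Cs J 2 U (L.F J) :=
  let ⟨_, _, k1, k2, k3⟩ := h.fr
  have z := fun x hx => (Line51.Iso.F_fr k1.isClosed.isOpen_compl k3 (h.ok.sa.mono (subset_univ _))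
    (x := x) hx).trans (congrFun dM_zero x)
  ⟨h.ok.cl_F isOpen_univ, .intro k1 z, (closure_minimal (support_subset_iff'.2 z) k1.isClosed).trans k2⟩

theorem F_comp {μ : Type} [Fintype μ] {p : M → Matrix μ μ ℂ} {V : Set M} (hV : IsOpen V) (hU : IsOpen U)
    (h : (⟨p, 0⟩ : Ln E M μ).On I V) {f : N → M} (hf : Mp J I U V f) {y : N} (hy : y ∈ U) :
    pm J I f (Ln.F I ⟨p, 0⟩) y = Ln.F J ⟨fun z => p (f z), 0⟩ y := by
  rw [← h.F_pull hV hU hf hy, Ln.pull, pm_zero]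

variable (U) in
/-- push forward to the image of `U` -/
def pu (w : N → Ext E') : M → Ext E := (φ '' U).indicator (pm I J φ.symm w)

theorem pu_mul : pu φ U w * pu φ U w' = pu φ U (w * w') := by
  rw [pu, pu, pu, pm_mul]
  funext z
  by_cases h : z ∈ φ '' U <;> simp [h]

theorem pu_off : Off (φ '' U) (pu φ U w) := fun _ h => indicator_of_notMem h _

variable (hs : U ⊆ φ.source)
include hs

theorem sc_img (h : SC U) : SC (φ '' U) :=
  ⟨h.1.image _ (φ.contMDiffOn.continuousOn.mono hs), by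
    rintro _ ⟨x, hx, rfl⟩
    exact image_singleton ▸ (h.2 x hx).image φ.toOpenPartialHomeomorph hs (singleton_subset_iff.2 hx)⟩

theorem pu_psh {z : M} (hz : z ∈ φ '' U) : pu φ U w z = psh φ w z :=
  (indicator_of_mem hz _).trans (indicator_of_mem (image_subset_iff.2 (fun _ k => φ.map_source (hs k)) hz) _).symm

theorem pm_pu {y : N} (hy : y ∈ U) : pm J I φ (pu φ U w) y = w y :=
  (pm_congr_right (pu_psh φ hs (mem_image_of_mem _ hy))).trans (pm_psh φ (hs hy) w)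

theorem pu_zero {y : N} (hy : y ∈ U) (h : w y = 0) : pu φ U w (φ y) = 0 := by
  rw [pu, indicator_of_mem (mem_image_of_mem _ hy), pm_apply]
  erw [(congrArg w (φ.left_inv (hs hy))).trans h, map_zero]

theorem pu_eq (h : Cs J k U w) : pu φ U w = psh φ w := funext fun z => (em _).elim (pu_psh φ hs) fun n =>
  (pu_off φ z n).trans (psh_eq_zero φ (fun _ _ => h.eq_zero) n).symm

theorem cs_pu (h : Cs J k U w) : Cs I k (φ '' U) (pu φ U w) := pu_eq φ hs h ▸ h.psh φ hs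

theorem ip_pu {o : M → Ext E} {v : N → Ext E'} (ho : Ori I o) (hv : Ori J v) (e : SameOn v (pm J I φ o) φ.source)
    (h : Cs J k U w) {c : M → Ext E} (hc : EqOn (pm J I φ c) w' U) : integ I o (c * pu φ U w) = ip J v w' w := by
  rw [pu_eq φ hs h, ← h.ip_congr hc, ← h.ip_psh φ hs ho hv (e.mono hs), ip]

theorem ref_img (hU : IsOpen U) {μ : Type} [Fintype μ] {p : N → Matrix μ μ ℂ} {q : M → Matrix μ μ ℂ}
    {u : N → Matrix μ μ ℂ} (hp : (⟨p, 0⟩ : Ln E' N μ).On J U) (hq : (⟨q, 0⟩ : Ln E M μ).On I univ)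
    (hu : Uni J p (fun x => q (φ x)) u U) (h : Ref J p U w) : Ref I q (φ '' U) (pu φ U w) := by
  obtain ⟨ι, κ, _, _, _, _, d, h1, h2⟩ := h
  have m := pd_mp_symm φ hs
  have o := pd_open φ hU hs
  have t : φ '' U ⊆ φ.target := image_subset_iff.2 fun _ k => φ.map_source (hs k)
  refine ⟨ι, κ, ‹_›, ‹_›, ‹_›, ‹_›, d.pull I φ.symm, h1.pull (fun _ k => Met55.pd_ld' (t k)) m.maps, ?_⟩
  refine ((h2.pm m).sub (Line51.Uni.ex_F (L := ⟨fun z => p (φ.symm z), 0⟩) (L' := ⟨q, 0⟩) o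
    ((hu.comp m).congr_p (fun _ _ => rfl) fun z k => congrArg q (φ.right_inv (t k)).symm)
    (by simpa [Ln.pull] using hp.pull m) (hq.mono (subset_univ _)))).congr fun z k => ?_
  simp only [pm_sub, pm_smul, Pi.sub_apply, Pi.smul_apply, F_comp hU o hp m k, F_comp hU o h1.det.on m k, pu,
    indicator_of_mem k]
  exact (show ∀ a b c e : Ext E, a - c - e = a - b - e - (c - b) from fun _ _ _ _ => by abel) _ _ _ _

variable (hΩ : IsClopen (φ '' U))
include hΩ

theorem fo_pu (h : Sm J U w) (h' : Dg k U w) : Fo I k (pu φ U w) :=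
  fo_ind hΩ (h.pm (pd_mp_symm φ hs)) (h'.pm (pd_mp_symm φ hs).maps)

theorem dM_pu (h : Sm J U w) (e : EqOn (dM J w) w' U) : dM I (pu φ U w) = pu φ U w' := funext fun z => by
  have m := pd_mp_symm φ hs
  by_cases k : z ∈ φ '' U
  · rw [dM_eqOn hΩ.2 (a := pu φ U w) (fun _ l => indicator_of_mem l _) k, dM_pm ne0 (m.sm z k) (h _ (m.maps k)), pu,
      indicator_of_mem k, pm_congr_right (e (m.maps k))]
  · exact (dM_eqOn hΩ.1.isOpen_compl (b := 0) (pu_off φ) k).trans ((congrFun dM_zero z).trans (pu_off φ z k).symm)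

theorem cz_pu (h : Cl J 2 U w) : Cz I (φ '' U) (pu φ U w) :=
  ⟨fo_pu φ hs hΩ h.sm h.dg, (dM_pu φ hs hΩ (w' := 0) h.sm h.cl).trans (by simp [pu]), pu_off φ⟩

end gen

open M G75 An Cht98 Cyl58

section pr
variable {Y Y' : Mf 3} {κ : Type} [Fintype κ] {F : Fr Y.I Y.M κ} {θ : Y.M → Circle} {ϖ : Y.M → V3}

theorem pr_sm (h : PR F θ ϖ) (y : Y.M) : CSm Y.I θ y ∧ ContMDiffAt Y.I 𝓘(ℝ, V3) ∞ ϖ y :=
  have k := (h.oe.contMDiff (y, 0)).comp y (contMDiffAt_id.prodMk contMDiffAt_const)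
  ⟨k.fst, by simpa [comp_def] using k.snd⟩

theorem pr_comp (h : PR F θ ϖ) {F' : Fr Y'.I Y'.M κ} {g : Y'.M ≃ₘ^∞⟮Y'.I, Y.I⟯ Y.M}
    (e : ∀ k y, mf Y'.I Y.I g y (Met55.atx F'.e y k) = Met55.atx F.e (g y) k) : PR F' (θ ∘ g) (ϖ ∘ g) := by
  have d : ∀ {V : Type} [NormedAddCommGroup V] [NormedSpace ℝ V] {f : Y.M → V} k y,
      ContMDiffAt Y.I 𝓘(ℝ, V) ∞ f (g y) → F'.D k (fun y => f (g y)) y = F.D k f (g y) := fun k y hf =>
    (DFunLike.congr_fun (mfderiv_comp y (hf.mdifferentiableAt ne0) (g.mdifferentiable ne0 y)) _).trans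
      (congrArg _ (e k y))
  have d1 := fun k y => d k y ((Line51.contMDiff_coe _).comp _ (pr_sm h (g y)).1)
  have d2 := fun k y => d k y (pr_sm h (g y)).2
  refine ⟨fun _ => h.nrm _, h.oe.comp ((IsOE.of_diffeo g).prodMap .id), fun z v k => ?_, fun y v w => ?_,
    fun y v w => ?_, fun y v w => ?_⟩
  · obtain ⟨y, k⟩ := h.surj z v k
    exact ⟨g.symm y, by simpa using k⟩
  · exact (Finset.sum_congr rfl fun k _ => congrArg (fun a => inner ℝ v a * inner ℝ w a) (d1 k y)).trans (h.g1 _ v w)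
  · exact (Finset.sum_congr rfl fun k _ => congrArg (fun a => inner ℝ v a * inner ℝ w a) (d2 k y)).trans (h.g2 _ v w)
  · exact (Finset.sum_congr rfl fun k _ => congrArg₂ (fun a b => inner ℝ v a * inner ℝ w b) (d1 k y) (d2 k y)).trans
      (h.g12 _ v w)

end pr

theorem clopen_om {X : Mf 4} {A κ : Type} [Fintype A] [Fintype κ] {M : Mark X A κ} (C : Caps M) {c : M.Cl} {a : A}
    (h : a ∈ c.1) (hp : ¬M.pin a) (o : Dfl49.Only M c.1 a false) : IsClopen (C.φ c '' (M.sys.w a).sd false) := by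
  have ha : a ∈ c.1 ∧ ¬M.pin a ∨ a ∈ M.sys.fr c.1 := .inl ⟨h, hp⟩
  refine ⟨?_, o.isOpen C⟩
  convert isClosed_le (sm_hZ C ha).continuous continuous_const (g := fun _ => 0)
  refine Set.ext fun z => ⟨?_, fun (k : Cht98.hZ C c a z ≤ 0) => ?_⟩
  · rintro ⟨x, hx, rfl⟩
    have := (M.bn a).mem_sd.1 hx
    rw [mem_ofPred, hZ_φ C ha (o.off hx)]
    simp [X212.M.pm] at this
    exact this.le
  · rcases caps_surj C z with ⟨x, hx, rfl⟩ | ⟨a', h1, h2, b, rfl⟩
    · refine ⟨x, (M.bn a).mem_sd.2 ?_, rfl⟩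
      simpa [X212.M.pm, ← hZ_φ C ha hx] using k.lt_of_ne (hZ_ne C h hp _)
    · have := (M.bn a).mem_sd.1 ((o a' h1).resolve_left (fun e => hp (e ▸ h2))
        ⟨(Classical.arbitrary _, 0), rfl⟩)
      simp only [X212.M.pm, Bool.not_false, if_true, one_mul] at this
      exact (this.not_ge (((capsD C c).lift_cap _ _ ⟨(a', b), h1, h2⟩ (0 : V4)).ge.trans k)).elim

variable {κ lam : Type} [Fintype κ] [Fintype lam] [DecidableEq lam] {Lm : LM κ lam}

/-- **QA-TOP** -/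
theorem top (S : Scene Lm) : TopStmt S := fun i R e D h hi W Λ m c hR o _ _ T g iso => by
  have hs := o.src W.toCaps
  have hU := (S.M.sys.w R).op_sd false
  have hΩ := clopen_om W.toCaps hR h.np o
  have mp := pd_mp (W.φ c) hs
  have cε : ∀ k, Cs S.X.I 2 ((S.M.sys.w R).sd false) (D.ε k) := fun k => (cs_le (h.le k)).smul _
  have cγ := fun b => (h.csγ b).mono (subset_union_left.trans (h.pin b).2.2)
  have ipu := fun k {a w'} => ip_pu (W.φ c) hs (w' := w') (W.ori c) S.M.ori (W.oφ c) (cε k) (c := a)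
  have J : ∀ q ∈ hZ T.Y 0, q.2 ∈ Nd18.Jv (np 1 false) (nq 1 false) := fun q k => by
    simpa [Nd18.Jv, np_false, nq_one] using k.2
  have l : ∀ q ∈ hZ T.Y 0, li 1 false q.2 ∈ Ioo (-1 : ℝ) 0 := fun q k =>
    have t := li_mem le_rfl (J q k); ⟨t.1.1, t.2.resolve_left (lt_irrefl _)⟩
  have u : ∀ q ∈ hZ T.Y 0, (S.M.bn R).j (g q.1, li 1 false q.2) ∈ (S.M.sys.w R).sd false := fun q k =>
    (S.M.bn R).j_mem_sd.2 (by simpa [M.pm] using (l q k).2)
  have d : ∀ q ∈ hZ T.Y 0, MDifferentiableAt (IC T.Y.I) (IC (S.M.bn R).Y.I) (Prod.map g (li 1 false)) q := fun q k =>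
    (g.mdifferentiable ne0 _).prodMap' ((ld_li le_rfl (J q k)).mdifferentiableAt ne0)
  have pe : ∀ w, ∀ q ∈ hZ T.Y 0, Dr59.pm (IC T.Y.I) (W.Z c).I (nd R W c g) (push R W c w) q =
      Dr59.pm (IC T.Y.I) (IC (S.M.bn R).Y.I) (Prod.map g (li 1 false)) (Rf65.bd S R w) q := fun w q k => by
    have j := ((S.M.bn R).oe.contMDiff (Prod.map g (li 1 false) q)).mdifferentiableAt ne0
    rw [pm_comp j (d q k), show nd R W c g = W.φ c ∘ (S.M.bn R).j ∘ Prod.map g (li 1 false) from rfl,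
      ← pm_comp (f := (S.M.bn R).j ∘ Prod.map g (li 1 false)) ((mp.sm _ (u q k)).mdifferentiableAt ne0)
        (j.comp q (d q k))]
    exact pm_congr_right (pm_pu (W.φ c) hs (u q k))
  refine ⟨⟨W.ori c, hΩ, sc_img _ hs h.sc, fun b => ⟨pd_open _ (hU.inter ((S.M.sys.w _).op_sd _))
    (inter_subset_left.trans hs), image_mono inter_subset_left, sc_img _ (inter_subset_left.trans hs) (h.sc' b), ?_, ?_⟩,
    fun k => cs_pu _ hs (cε k), fun k l => (ipu l fun _ => pm_pu _ hs).trans (h.gram k l), h.a1,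
    fun b => cz_pu _ hs hΩ (h.clη b), fun b q k => ?_, fun w hw => ?_, fun b => cs_pu _ hs (cγ b), fun b => ?_,
    ex_pd _ hU hs (h.exγ.congr fun x k => ?_), ⟨fo_pu _ hs hΩ h.smα.1 h.smα.2, pu_off _⟩,
    (dM_pu _ hs hΩ h.smα.1 h.dα).trans ?_, fun q k => ?_, h.odd,
    ref_img _ hs hU ((S.N i).ok.mono (subset_univ _)) (Lab56.LOn.of_ln ((Λ.Λ m c).ok 0)).on ((Λ.uni m c).mono hs) h.ref,
    fun n _ _ L hL k => (hi n _ (hL.pull mp) k).imp fun _ => (ipu k fun _ x => (hL.F_pull hΩ.2 hU mp x).symm).trans⟩,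
    pr_comp h.pr iso.e⟩
  · rintro _ ⟨q, k, rfl⟩
    obtain ⟨s, t⟩ := Wall.exists_side (h.pin b).2.1.symm
    refine ⟨_, ⟨u q k, ?_⟩, rfl⟩
    cases s
    · obtain ⟨x, hx⟩ := (S.M.sys.w R).ne true
      exact ((S.M.sys.w R).not_mem_sd hx.2 ((h.pin b).2.2 (.inl (t hx.1)))).elim
    · exact t ⟨_, rfl⟩
  · rintro _ ⟨x, k, rfl⟩
    exact pu_zero _ hs k.1 ((h.csγ b).eq_zero ((S.M.sys.w _).not_mem_sd k.2))
  · exact (pe _ q k).trans ((pm_congr_right (h.ηE b (l q k))).trans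
      (pm_ar (d q k) ((pr_sm h.pr _).2.comp _ contMDiffAt_fst)))
  · refine (h.span _ (((hw.fo.cl hw.cl).mono (subset_univ _)).pm mp)).imp fun a => Exists.imp fun r k =>
      ex_pd _ hU hs (k.congr fun x k => ?_)
    simp only [pm_sub, pm_sum, pm_smul, Pi.sub_apply, Finset.sum_apply, Pi.smul_apply]
    exact congrArg₂ _ (congrArg _ (Finset.sum_congr rfl fun _ _ => congrArg _ (pm_pu _ hs k)))
      (congrArg _ (pm_pu _ hs k))
  · refine (pu_mul (W.φ c)).trans ?_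
    rw [show D.γ b * D.η b = 0 from funext fun x => (em _).elim (fun k => by
      rw [Pi.mul_apply, h.η0 b x (.inl k), mul_zero, Pi.zero_apply]) fun k => by
        rw [Pi.mul_apply, (h.csγ b).eq_zero k, zero_mul, Pi.zero_apply]]
    simp [pu]
  · simp only [pm_sub, pm_sum, pm_smul, Pi.sub_apply, Finset.sum_apply, Pi.smul_apply]
    exact congrArg₂ _ (pm_pu _ hs k) (Finset.sum_congr rfl fun _ _ => congrArg _ (pm_pu _ hs k))
  · rw [pu, pm_sub]
    exact indicator_sub' ..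
  · refine (pe _ q k).trans ((pm_congr_right (h.αE (l q k))).trans ?_)
    rw [pm_smul]
    exact congrArg _ (Line51.pm_ang ((pr_sm h.pr _).1.comp _ contMDiffAt_fst) (d q k))

end Crest.Agent.X212.Qt4
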